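import Mathlib
import Vale.Agent.H8.BA.Defs

namespace Vale.Agent.H8

/-- Two reduced residues of `k γ - y` at distinct arguments are separated. -/
theorem blk_sep (γ κ : ℝ) (hκ : 0 < κ)
    (hγ : ∀ k : ℕ, 0 < k → κ ≤ (k : ℝ) * nn ((k : ℝ) * γ))
    (y Q : ℝ) (a b : ℕ) (hab : b < a) (habQ : (a : ℝ) - (b : ℝ) < Q) :
    κ / Q < |(((a : ℝ) * γ - y) - round ((a : ℝ) * γ - y))
      - (((b : ℝ) * γ - y) - round ((b : ℝ) * γ - y))| := by
  set d : ℕ := a - b with hd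
  have hdpos : 0 < d := Nat.sub_pos_of_lt hab
  have hdR : (d : ℝ) = (a : ℝ) - (b : ℝ) := by
    rw [hd, Nat.cast_sub hab.le]
  have hdRpos : (0 : ℝ) < (d : ℝ) := by exact_mod_cast hdpos
  have hdQ : (d : ℝ) < Q := by rw [hdR]; exact habQ
  have e : (((a : ℝ) * γ - y) - round ((a : ℝ) * γ - y))
      - (((b : ℝ) * γ - y) - round ((b : ℝ) * γ - y))
      = (d : ℝ) * γ - ((round ((a : ℝ) * γ - y) - round ((b : ℝ) * γ - y) : ℤ) : ℝ) := by
    rw [hdR]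
    push_cast
    ring
  rw [e]
  have h1 : nn ((d : ℝ) * γ) ≤
      |(d : ℝ) * γ - ((round ((a : ℝ) * γ - y) - round ((b : ℝ) * γ - y) : ℤ) : ℝ)| := by
    rw [← nn_sub_intCast ((d : ℝ) * γ) (round ((a : ℝ) * γ - y) - round ((b : ℝ) * γ - y))]
    exact nn_le_abs _
  have h2 : κ / (d : ℝ) ≤ nn ((d : ℝ) * γ) := by
    rw [div_le_iff₀ hdRpos, mul_comm]
    exact hγ d hdpos
  have h3 : κ / Q < κ / (d : ℝ) := div_lt_div_of_pos_left hκ hdRpos hdQ
  linarith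

/-- Separation counting lemma for a badly approximable `γ`: among natural numbers `k` from a set
`T` of diameter `< Q`, at most `2 w Q / κ + 2` have `‖k γ - y‖ < w`. -/
theorem block_count (γ κ : ℝ) (hκ : 0 < κ)
    (hγ : ∀ k : ℕ, 0 < k → κ ≤ (k : ℝ) * nn ((k : ℝ) * γ))
    (y w Q : ℝ) (hw : 0 ≤ w) (hQ : 0 < Q) (T : Finset ℕ)
    (hT : ∀ a ∈ T, ∀ b ∈ T, (a : ℝ) - (b : ℝ) < Q) :
    ((T.filter (fun k : ℕ => nn ((k : ℝ) * γ - y) < w)).card : ℝ) ≤ 2 * w * Q / κ + 2 := by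
  set S := T.filter (fun k : ℕ => nn ((k : ℝ) * γ - y) < w) with hS
  set u : ℕ → ℝ := fun k => ((k : ℝ) * γ - y) - round ((k : ℝ) * γ - y) with hu
  set c : ℝ := Q / κ with hc
  have hcpos : 0 < c := div_pos hQ hκ
  have hu_lt : ∀ k ∈ S, |u k| < w := by
    intro k hk
    exact (Finset.mem_filter.mp hk).2
  have hsep : ∀ a ∈ S, ∀ b ∈ S, b < a → κ / Q < |u a - u b| := by
    intro a ha b hb hab
    exact blk_sep γ κ hκ hγ y Q a b hab
      (hT a (Finset.mem_filter.mp ha).1 b (Finset.mem_filter.mp hb).1)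
  have hne : ∀ a ∈ S, ∀ b ∈ S, b < a → ⌊u a * c⌋ ≠ ⌊u b * c⌋ := by
    intro a ha b hb hab heq
    have h1 := Int.abs_sub_lt_one_of_floor_eq_floor heq
    have h2 : u a * c - u b * c = (u a - u b) * c := by ring
    rw [h2, abs_mul, abs_of_pos hcpos] at h1
    have h3 := hsep a ha b hb hab
    have h4 : κ / Q * c = 1 := by
      rw [hc]
      field_simp
    have h5 : κ / Q * c < |u a - u b| * c := mul_lt_mul_of_pos_right h3 hcpos
    linarith
  have hinj : Set.InjOn (fun k : ℕ => ⌊u k * c⌋) (S : Set ℕ) := by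
    intro a ha b hb hab
    by_contra hab'
    rcases Nat.lt_or_gt_of_ne hab' with h | h
    · exact hne b hb a ha h hab.symm
    · exact hne a ha b hb h hab
  have hmaps : ∀ k ∈ S, (fun k : ℕ => ⌊u k * c⌋) k ∈ Finset.Icc ⌊-(w * c)⌋ ⌊w * c⌋ := by
    intro k hk
    have h1 := abs_lt.mp (hu_lt k hk)
    rw [Finset.mem_Icc]
    constructor
    · apply Int.floor_le_floor
      nlinarith [h1.1]
    · apply Int.floor_le_floor
      nlinarith [h1.2]
  have hcard : S.card ≤ (Finset.Icc ⌊-(w * c)⌋ ⌊w * c⌋).card :=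
    Finset.card_le_card_of_injOn _ hmaps hinj
  rw [Int.card_Icc] at hcard
  have h1 : ((⌊w * c⌋ + 1 - ⌊-(w * c)⌋).toNat : ℝ) ≤ 2 * w * Q / κ + 2 := by
    have hwc : 0 ≤ w * c := mul_nonneg hw hcpos.le
    have e : 2 * w * Q / κ = 2 * (w * c) := by rw [hc]; ring
    rw [e]
    have hA : (⌊w * c⌋ : ℝ) ≤ w * c := Int.floor_le _
    have hB : -(w * c) - 1 < (⌊-(w * c)⌋ : ℝ) := by
      have := Int.lt_floor_add_one (-(w * c))
      linarith
    by_cases hneg : ⌊w * c⌋ + 1 - ⌊-(w * c)⌋ ≤ 0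
    · rw [Int.toNat_of_nonpos hneg]
      simp only [Nat.cast_zero]
      linarith
    · have hnn : 0 ≤ ⌊w * c⌋ + 1 - ⌊-(w * c)⌋ := by omega
      have e2 : ((⌊w * c⌋ + 1 - ⌊-(w * c)⌋).toNat : ℝ)
          = ((⌊w * c⌋ + 1 - ⌊-(w * c)⌋ : ℤ) : ℝ) := by
        exact_mod_cast congrArg (fun z : ℤ => (z : ℝ)) (Int.toNat_of_nonneg hnn)
      rw [e2]
      push_cast
      linarith
  have h2 : (S.card : ℝ) ≤ ((⌊w * c⌋ + 1 - ⌊-(w * c)⌋).toNat : ℝ) := by exact_mod_cast hcard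
  linarith

end Vale.Agent.H8
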