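import Mathlib

namespace Vale.Agent.H8

/-- Telescoping bound for the prime power sum. -/
theorem dvl_geom (x L : ℝ) (hx0 : 0 ≤ x) (hx : x ≤ 1 / 2) (hL : 0 ≤ L) (n : ℕ) :
    ∑ a ∈ Finset.range (n + 1), (1 + (a : ℝ) * L) * x ^ a
        + (2 + 4 * L * x + 2 * L * ((n : ℝ) + 1)) * x ^ (n + 1)
      ≤ 1 + (2 + 4 * L * x + 2 * L) * x := by
  induction n with
  | zero => simp
  | succ n ih =>
    rw [Finset.sum_range_succ]
    have hxn : 0 ≤ x ^ (n + 1) := pow_nonneg hx0 _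
    have key : (1 + ((n + 1 : ℕ) : ℝ) * L) * x ^ (n + 1)
        + (2 + 4 * L * x + 2 * L * (((n + 1 : ℕ) : ℝ) + 1)) * x ^ (n + 1 + 1)
        ≤ (2 + 4 * L * x + 2 * L * ((n : ℝ) + 1)) * x ^ (n + 1) := by
      have h1 : (2 + 4 * L * x + 2 * L * ((n : ℝ) + 1)) * x ^ (n + 1)
          - ((1 + ((n + 1 : ℕ) : ℝ) * L) * x ^ (n + 1)
            + (2 + 4 * L * x + 2 * L * (((n + 1 : ℕ) : ℝ) + 1)) * x ^ (n + 1 + 1))
          = x ^ (n + 1) * ((1 - 2 * x) * (1 + 2 * L * x + ((n : ℝ) + 1) * L)) := by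
        push_cast
        ring
      have h2 : 0 ≤ x ^ (n + 1) * ((1 - 2 * x) * (1 + 2 * L * x + ((n : ℝ) + 1) * L)) := by
        have hn : (0 : ℝ) ≤ (n : ℝ) := Nat.cast_nonneg n
        have h3 : 0 ≤ 1 - 2 * x := by linarith
        have h4 : 0 ≤ 1 + 2 * L * x + ((n : ℝ) + 1) * L := by positivity
        positivity
      linarith
    linarith

/-- The prime power case. -/
theorem dvl_prime_pow (p n : ℕ) (hp : p.Prime) (hn : 0 < n) :
    ∑ d ∈ (p ^ n).divisors, (1 + Real.log (d : ℝ)) / (d : ℝ)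
      ≤ Real.exp (8 * ∑ r ∈ (p ^ n).primeFactors, Real.log (r : ℝ) / (r : ℝ)) := by
  have hp2 : (2 : ℝ) ≤ (p : ℝ) := by exact_mod_cast hp.two_le
  have hp0 : (0 : ℝ) < (p : ℝ) := by linarith
  rw [Nat.primeFactors_prime_pow hn.ne' hp, Finset.sum_singleton, Nat.divisors_prime_pow hp,
    Finset.sum_map]
  set L : ℝ := Real.log (p : ℝ) with hLdef
  set x : ℝ := (p : ℝ)⁻¹ with hxdef
  have hL2 : Real.log 2 ≤ L := Real.log_le_log (by norm_num) hp2
  have hlog2 : (1 : ℝ) / 2 < Real.log 2 := by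
    have := Real.log_two_gt_d9
    linarith
  have hL : 0 ≤ L := by linarith
  have hx0 : 0 ≤ x := by positivity
  have hx : x ≤ 1 / 2 := by
    have h := inv_anti₀ (by norm_num : (0 : ℝ) < 2) hp2
    rw [hxdef]
    linarith
  have hterm : ∀ a ∈ Finset.range (n + 1),
      (1 + Real.log (((⟨fun k => p ^ k, Nat.pow_right_injective hp.two_le⟩ : ℕ ↪ ℕ) a : ℕ) : ℝ))
        / (((⟨fun k => p ^ k, Nat.pow_right_injective hp.two_le⟩ : ℕ ↪ ℕ) a : ℕ) : ℝ)
      = (1 + (a : ℝ) * L) * x ^ a := by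
    intro a _
    simp only [Function.Embedding.coeFn_mk, Nat.cast_pow, Real.log_pow]
    rw [hxdef, inv_pow, div_eq_mul_inv]
  rw [Finset.sum_congr rfl hterm]
  have hg := dvl_geom x L hx0 hx hL n
  have htail : 0 ≤ (2 + 4 * L * x + 2 * L * ((n : ℝ) + 1)) * x ^ (n + 1) := by
    have hn' : (0 : ℝ) ≤ (n : ℝ) := Nat.cast_nonneg n
    positivity
  have hLx : 0 ≤ L * x := mul_nonneg hL hx0
  have h1 : ∑ a ∈ Finset.range (n + 1), (1 + (a : ℝ) * L) * x ^ a ≤ 1 + 8 * (L * x) := by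
    have h2 : (2 + 4 * L * x + 2 * L) * x ≤ 8 * (L * x) := by
      have h3 : L * x * x ≤ L * x * (1 / 2) := mul_le_mul_of_nonneg_left hx hLx
      have h4 : x ≤ 2 * L * x := by
        have : 1 * x ≤ 2 * L * x := mul_le_mul_of_nonneg_right (by linarith) hx0
        linarith
      nlinarith
    linarith
  have h5 : L / (p : ℝ) = L * x := by rw [hxdef, div_eq_mul_inv]
  rw [h5]
  calc ∑ a ∈ Finset.range (n + 1), (1 + (a : ℝ) * L) * x ^ a ≤ 1 + 8 * (L * x) := h1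
    _ = 8 * (L * x) + 1 := by ring
    _ ≤ Real.exp (8 * (L * x)) := Real.add_one_le_exp _

/-- Nonnegativity of the summand. -/
theorem dvl_nonneg (d : ℕ) : 0 ≤ (1 + Real.log (d : ℝ)) / (d : ℝ) := by
  have h1 : 0 ≤ Real.log (d : ℝ) := Real.log_natCast_nonneg d
  have h2 : (0 : ℝ) ≤ (d : ℝ) := Nat.cast_nonneg d
  positivity

/-- Submultiplicativity of the summand. -/
theorem dvl_submul (d e : ℕ) :
    (1 + Real.log ((d * e : ℕ) : ℝ)) / ((d * e : ℕ) : ℝ)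
      ≤ (1 + Real.log (d : ℝ)) / (d : ℝ) * ((1 + Real.log (e : ℝ)) / (e : ℝ)) := by
  rcases Nat.eq_zero_or_pos d with hd | hd
  · subst hd
    simp
  rcases Nat.eq_zero_or_pos e with he | he
  · subst he
    simp
  have hd' : (0 : ℝ) < (d : ℝ) := by exact_mod_cast hd
  have he' : (0 : ℝ) < (e : ℝ) := by exact_mod_cast he
  have h1 : 0 ≤ Real.log (d : ℝ) := Real.log_natCast_nonneg d
  have h2 : 0 ≤ Real.log (e : ℝ) := Real.log_natCast_nonneg e
  rw [Nat.cast_mul, Real.log_mul hd'.ne' he'.ne', div_mul_div_comm]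
  apply div_le_div_of_nonneg_right _ (by positivity)
  nlinarith [mul_nonneg h1 h2]

/-- The divisor sum `∑_{d ∣ q} (1 + log d) / d` is bounded in terms of `∑_{p ∣ q} (log p) / p`. -/
theorem divLog_le_exp (q : ℕ) (hq : 0 < q) :
    ∑ d ∈ q.divisors, (1 + Real.log (d : ℝ)) / (d : ℝ)
      ≤ Real.exp (8 * ∑ p ∈ q.primeFactors, Real.log (p : ℝ) / (p : ℝ)) := by
  clear hq
  induction q using Nat.recOnPosPrimePosCoprime with
  | prime_pow p n hp hn => exact dvl_prime_pow p n hp hn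
  | zero => simp
  | one => simp
  | coprime a b ha hb hab iha ihb =>
    have ha0 : a ≠ 0 := by omega
    have hb0 : b ≠ 0 := by omega
    have hsum : ∑ d ∈ (a * b).divisors, (1 + Real.log (d : ℝ)) / (d : ℝ)
        = ∑ x ∈ a.divisors ×ˢ b.divisors,
            (1 + Real.log ((x.1 * x.2 : ℕ) : ℝ)) / ((x.1 * x.2 : ℕ) : ℝ) := by
      rw [hab.divisors_mul, Finset.sum_map]
      exact Finset.sum_attach (a.divisors ×ˢ b.divisors)
        (fun x => (1 + Real.log ((x.1 * x.2 : ℕ) : ℝ)) / ((x.1 * x.2 : ℕ) : ℝ))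
    rw [Nat.primeFactors_mul ha0 hb0, Finset.sum_union hab.disjoint_primeFactors, mul_add,
      Real.exp_add, hsum, Finset.sum_product]
    calc ∑ d ∈ a.divisors, ∑ e ∈ b.divisors, (1 + Real.log ((d * e : ℕ) : ℝ)) / ((d * e : ℕ) : ℝ)
        ≤ ∑ d ∈ a.divisors, ∑ e ∈ b.divisors,
            (1 + Real.log (d : ℝ)) / (d : ℝ) * ((1 + Real.log (e : ℝ)) / (e : ℝ)) :=
          Finset.sum_le_sum fun d _ => Finset.sum_le_sum fun e _ => dvl_submul d e
      _ = (∑ d ∈ a.divisors, (1 + Real.log (d : ℝ)) / (d : ℝ))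
            * ∑ e ∈ b.divisors, (1 + Real.log (e : ℝ)) / (e : ℝ) := by
          rw [Finset.sum_mul_sum]
      _ ≤ Real.exp (8 * ∑ p ∈ a.primeFactors, Real.log (p : ℝ) / (p : ℝ))
            * Real.exp (8 * ∑ p ∈ b.primeFactors, Real.log (p : ℝ) / (p : ℝ)) :=
          mul_le_mul iha ihb (Finset.sum_nonneg fun e _ => dvl_nonneg e) (Real.exp_nonneg _)

end Vale.Agent.H8
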