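import Mathlib
import Vale.Agent.H8.BA.Defs
import Vale.Agent.H8.BA.ABound

namespace Vale.Agent.H8

theorem prr_max_log (x a : ℝ) (hx : 1 ≤ x) (ha : 0 < a) :
    max 0 (Real.log (x / a)) ≤ Real.log x + max 0 (Real.log (1 / a)) := by
  have hx0 : 0 < x := lt_of_lt_of_le one_pos hx
  have h1 : Real.log (x / a) = Real.log x + Real.log (1 / a) := by
    rw [div_eq_mul_one_div, Real.log_mul hx0.ne' (one_div_pos.mpr ha).ne']
  have h2 : 0 ≤ Real.log x := Real.log_nonneg hx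
  rw [h1]
  apply max_le
  · have := le_max_left 0 (Real.log (1 / a))
    linarith
  · have := le_max_right 0 (Real.log (1 / a))
    linarith

theorem prr_real (c κ G D L1 L2 lG lD m1 m2 N : ℝ) (hc : 0 < c) (hκ : 0 < κ) (hG : 1 ≤ G)
    (hD : 1 ≤ D) (hL1 : 0 ≤ L1) (hL2 : 0 ≤ L2) (hlG : 0 ≤ lG) (hlD : 0 ≤ lD)
    (hm1 : m1 ≤ lG + L1) (hm2 : m2 ≤ lD + L2)
    (hN : N ≤ 2 * (2 * c / G) * D + (2 * (2 * c / G) * D / κ) * (2 * m1) + 2 * (2 * m2)) :
    G * N ≤ (4 * c + 8 * c / κ * (1 + L1)) * (D * (1 + lG)) + 4 * (1 + L2) * (G * (1 + lD)) := by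
  have hG0 : 0 < G := lt_of_lt_of_le one_pos hG
  have hD0 : 0 < D := lt_of_lt_of_le one_pos hD
  have e1 : G * (2 * (2 * c / G) * D + (2 * (2 * c / G) * D / κ) * (2 * m1) + 2 * (2 * m2))
      = 4 * c * D + 8 * c * D / κ * m1 + 4 * G * m2 := by
    field_simp
    ring
  have h0 : G * N ≤ 4 * c * D + 8 * c * D / κ * m1 + 4 * G * m2 := by
    rw [← e1]
    exact mul_le_mul_of_nonneg_left hN hG0.le
  have b1 : 8 * c * D / κ * m1 ≤ 8 * c * D / κ * (lG + L1) :=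
    mul_le_mul_of_nonneg_left hm1 (by positivity)
  have b2 : 4 * G * m2 ≤ 4 * G * (lD + L2) :=
    mul_le_mul_of_nonneg_left hm2 (by positivity)
  have p1 : 0 ≤ 4 * c * D * lG := by positivity
  have p2 : 0 ≤ 8 * c * D / κ * (1 + L1 * lG) := by positivity
  have p3 : 0 ≤ 4 * G * (1 + L2 * lD) := by positivity
  have id1 : (4 * c + 8 * c / κ * (1 + L1)) * (D * (1 + lG)) + 4 * (1 + L2) * (G * (1 + lD))
      = (4 * c * D + 8 * c * D / κ * (lG + L1) + 4 * G * (lD + L2))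
        + (4 * c * D * lG + 8 * c * D / κ * (1 + L1 * lG) + 4 * G * (1 + L2 * lD)) := by
    ring
  rw [id1]
  linarith

theorem prr_fibre (γ κ c : ℝ) (hκ : 0 < κ) (hc : 0 < c)
    (hγ : ∀ k : ℕ, 0 < k → κ ≤ (k : ℝ) * nn ((k : ℝ) * γ)) (r : ℕ) (hr : 0 < r) (g : ℕ)
    (hg : g ∈ r.divisors) :
    ∑ q ∈ (Finset.Ico 1 r).filter (fun q => Nat.gcd q r = g),
        (if nn ((((r / Nat.gcd q r : ℕ) : ℝ) - ((q / Nat.gcd q r : ℕ) : ℝ)) * γ)
              < 2 * c / (Nat.gcd q r : ℝ) * ((r / Nat.gcd q r : ℕ) : ℝ)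
                  / ((q / Nat.gcd q r : ℕ) : ℝ)
          then (Nat.gcd q r : ℝ) else 0)
      ≤ (4 * c + 8 * c / κ * (1 + max 0 (Real.log (1 / (2 * c)))))
            * (((r / g : ℕ) : ℝ) * (1 + Real.log (g : ℝ)))
        + 4 * (1 + max 0 (Real.log (1 / κ)))
            * ((g : ℝ) * (1 + Real.log ((r / g : ℕ) : ℝ))) := by
  classical
  have hgr : g ∣ r := (Nat.mem_divisors.mp hg).1
  have hgpos : 0 < g := Nat.pos_of_mem_divisors hg
  have hdpos : 0 < r / g := Nat.div_pos (Nat.le_of_dvd hr hgr) hgpos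
  have hG : (1 : ℝ) ≤ (g : ℝ) := by exact_mod_cast hgpos
  have hD : (1 : ℝ) ≤ ((r / g : ℕ) : ℝ) := by exact_mod_cast hdpos
  have hG0 : (0 : ℝ) < (g : ℝ) := lt_of_lt_of_le one_pos hG
  -- step A: replace the gcd by g
  have hA : ∑ q ∈ (Finset.Ico 1 r).filter (fun q => Nat.gcd q r = g),
        (if nn ((((r / Nat.gcd q r : ℕ) : ℝ) - ((q / Nat.gcd q r : ℕ) : ℝ)) * γ)
              < 2 * c / (Nat.gcd q r : ℝ) * ((r / Nat.gcd q r : ℕ) : ℝ)
                  / ((q / Nat.gcd q r : ℕ) : ℝ)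
          then (Nat.gcd q r : ℝ) else 0)
      = ∑ q ∈ (Finset.Ico 1 r).filter (fun q => Nat.gcd q r = g),
        (if nn ((((r / g : ℕ) : ℝ) - ((q / g : ℕ) : ℝ)) * γ)
              < 2 * c / (g : ℝ) * ((r / g : ℕ) : ℝ) / ((q / g : ℕ) : ℝ)
          then (g : ℝ) else 0) := by
    apply Finset.sum_congr rfl
    intro q hq
    rw [(Finset.mem_filter.mp hq).2]
  rw [hA, ← Finset.sum_filter, Finset.sum_const, nsmul_eq_mul]
  -- step C: injection into the set counted by A_bound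
  have hcard : (((Finset.Ico 1 r).filter (fun q => Nat.gcd q r = g)).filter
        (fun q => nn ((((r / g : ℕ) : ℝ) - ((q / g : ℕ) : ℝ)) * γ)
              < 2 * c / (g : ℝ) * ((r / g : ℕ) : ℝ) / ((q / g : ℕ) : ℝ))).card
      ≤ ((Finset.Ico 1 (r / g)).filter
        (fun q' : ℕ => nn ((((r / g : ℕ) : ℝ) - (q' : ℝ)) * γ)
              < 2 * c / (g : ℝ) * ((r / g : ℕ) : ℝ) / (q' : ℝ))).card := by
    apply Finset.card_le_card_of_injOn (fun q => q / g)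
    · intro q hq
      rw [Finset.mem_coe, Finset.mem_filter, Finset.mem_filter, Finset.mem_Ico] at hq
      rw [Finset.mem_coe, Finset.mem_filter, Finset.mem_Ico]
      have hdq : g ∣ q := hq.1.2 ▸ Nat.gcd_dvd_left q r
      refine ⟨⟨Nat.div_pos (Nat.le_of_dvd hq.1.1.1 hdq) hgpos,
        Nat.div_lt_div_of_lt_of_dvd hgr hq.1.1.2⟩, hq.2⟩
    · intro q hq q' hq' hqq'
      rw [Finset.mem_coe, Finset.mem_filter, Finset.mem_filter] at hq hq'
      have hdq : g ∣ q := hq.1.2 ▸ Nat.gcd_dvd_left q r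
      have hdq' : g ∣ q' := hq'.1.2 ▸ Nat.gcd_dvd_left q' r
      simp only at hqq'
      calc q = q / g * g := (Nat.div_mul_cancel hdq).symm
        _ = q' / g * g := by rw [hqq']
        _ = q' := Nat.div_mul_cancel hdq'
  have hAb := A_bound γ κ hκ hγ (r / g) (2 * c / (g : ℝ)) (by positivity)
  have hN : ((((Finset.Ico 1 r).filter (fun q => Nat.gcd q r = g)).filter
        (fun q => nn ((((r / g : ℕ) : ℝ) - ((q / g : ℕ) : ℝ)) * γ)
              < 2 * c / (g : ℝ) * ((r / g : ℕ) : ℝ) / ((q / g : ℕ) : ℝ))).card : ℝ)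
      ≤ 2 * (2 * c / (g : ℝ)) * ((r / g : ℕ) : ℝ)
        + (2 * (2 * c / (g : ℝ)) * ((r / g : ℕ) : ℝ) / κ)
            * (2 * max 0 (Real.log (1 / (2 * c / (g : ℝ)))))
        + 2 * (2 * max 0 (Real.log (((r / g : ℕ) : ℝ) / κ))) :=
    le_trans (by exact_mod_cast hcard) hAb
  have hm1 : max 0 (Real.log (1 / (2 * c / (g : ℝ))))
      ≤ Real.log (g : ℝ) + max 0 (Real.log (1 / (2 * c))) := by
    rw [one_div_div]
    exact prr_max_log (g : ℝ) (2 * c) hG (by positivity)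
  have hm2 : max 0 (Real.log (((r / g : ℕ) : ℝ) / κ))
      ≤ Real.log ((r / g : ℕ) : ℝ) + max 0 (Real.log (1 / κ)) :=
    prr_max_log _ κ hD hκ
  have hfin := prr_real c κ (g : ℝ) ((r / g : ℕ) : ℝ) (max 0 (Real.log (1 / (2 * c))))
    (max 0 (Real.log (1 / κ))) (Real.log (g : ℝ)) (Real.log ((r / g : ℕ) : ℝ)) _ _ _ hc hκ hG hD
    (le_max_left _ _) (le_max_left _ _) (Real.log_nonneg hG) (Real.log_nonneg hD) hm1 hm2 hN
  rw [mul_comm]
  exact hfin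

theorem prr_sum1 (r : ℕ) :
    ∑ g ∈ r.divisors, ((r / g : ℕ) : ℝ) * (1 + Real.log (g : ℝ))
      = (r : ℝ) * ∑ d ∈ r.divisors, (1 + Real.log (d : ℝ)) / (d : ℝ) := by
  rw [Finset.mul_sum]
  apply Finset.sum_congr rfl
  intro g hg
  have hgr : g ∣ r := (Nat.mem_divisors.mp hg).1
  have hg0 : (g : ℝ) ≠ 0 := by exact_mod_cast (Nat.pos_of_mem_divisors hg).ne'
  rw [Nat.cast_div hgr hg0]
  field_simp

theorem prr_sum2 (r : ℕ) (hr : 0 < r) :
    ∑ g ∈ r.divisors, (g : ℝ) * (1 + Real.log ((r / g : ℕ) : ℝ))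
      = (r : ℝ) * ∑ d ∈ r.divisors, (1 + Real.log (d : ℝ)) / (d : ℝ) := by
  have h := Nat.sum_div_divisors r (fun x => ((r / x : ℕ) : ℝ) * (1 + Real.log (x : ℝ)))
  rw [← prr_sum1, ← h]
  apply Finset.sum_congr rfl
  intro g hg
  have hgr : g ∣ r := (Nat.mem_divisors.mp hg).1
  show (g : ℝ) * (1 + Real.log ((r / g : ℕ) : ℝ))
    = ((r / (r / g) : ℕ) : ℝ) * (1 + Real.log ((r / g : ℕ) : ℝ))
  rw [Nat.div_div_self hgr hr.ne']

/-- For fixed `r`, the gcd-weighted number of `q < r` satisfying the Diophantine overlap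
condition is `≤ C · r · ∑_{d ∣ r} (1 + log d) / d`. -/
theorem per_r (γ κ c : ℝ) (hκ : 0 < κ) (hc : 0 < c)
    (hγ : ∀ k : ℕ, 0 < k → κ ≤ (k : ℝ) * nn ((k : ℝ) * γ)) :
    ∃ C : ℝ, 0 ≤ C ∧ ∀ r : ℕ, 0 < r →
      ∑ q ∈ Finset.Ico 1 r,
        (if nn ((((r / Nat.gcd q r : ℕ) : ℝ) - ((q / Nat.gcd q r : ℕ) : ℝ)) * γ)
              < 2 * c / (Nat.gcd q r : ℝ) * ((r / Nat.gcd q r : ℕ) : ℝ)
                  / ((q / Nat.gcd q r : ℕ) : ℝ)
          then (Nat.gcd q r : ℝ) else 0)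
        ≤ C * (r : ℝ) * ∑ d ∈ r.divisors, (1 + Real.log (d : ℝ)) / (d : ℝ) := by
  classical
  refine ⟨(4 * c + 8 * c / κ * (1 + max 0 (Real.log (1 / (2 * c)))))
      + 4 * (1 + max 0 (Real.log (1 / κ))), by positivity, ?_⟩
  intro r hr
  have hmaps : ∀ q ∈ Finset.Ico 1 r, Nat.gcd q r ∈ r.divisors := by
    intro q _
    rw [Nat.mem_divisors]
    exact ⟨Nat.gcd_dvd_right q r, hr.ne'⟩
  rw [← Finset.sum_fiberwise_of_maps_to hmaps]
  calc ∑ g ∈ r.divisors, ∑ q ∈ (Finset.Ico 1 r).filter (fun q => Nat.gcd q r = g),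
        (if nn ((((r / Nat.gcd q r : ℕ) : ℝ) - ((q / Nat.gcd q r : ℕ) : ℝ)) * γ)
              < 2 * c / (Nat.gcd q r : ℝ) * ((r / Nat.gcd q r : ℕ) : ℝ)
                  / ((q / Nat.gcd q r : ℕ) : ℝ)
          then (Nat.gcd q r : ℝ) else 0)
      ≤ ∑ g ∈ r.divisors, ((4 * c + 8 * c / κ * (1 + max 0 (Real.log (1 / (2 * c)))))
            * (((r / g : ℕ) : ℝ) * (1 + Real.log (g : ℝ)))
        + 4 * (1 + max 0 (Real.log (1 / κ)))
            * ((g : ℝ) * (1 + Real.log ((r / g : ℕ) : ℝ)))) :=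
        Finset.sum_le_sum (fun g hg => prr_fibre γ κ c hκ hc hγ r hr g hg)
    _ = (4 * c + 8 * c / κ * (1 + max 0 (Real.log (1 / (2 * c)))))
            * ∑ g ∈ r.divisors, ((r / g : ℕ) : ℝ) * (1 + Real.log (g : ℝ))
        + 4 * (1 + max 0 (Real.log (1 / κ)))
            * ∑ g ∈ r.divisors, (g : ℝ) * (1 + Real.log ((r / g : ℕ) : ℝ)) := by
        rw [Finset.sum_add_distrib, ← Finset.mul_sum, ← Finset.mul_sum]
    _ = ((4 * c + 8 * c / κ * (1 + max 0 (Real.log (1 / (2 * c)))))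
      + 4 * (1 + max 0 (Real.log (1 / κ)))) * (r : ℝ)
        * ∑ d ∈ r.divisors, (1 + Real.log (d : ℝ)) / (d : ℝ) := by
        rw [prr_sum1, prr_sum2 r hr]
        ring

end Vale.Agent.H8
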